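import Vale.Agent.P181.TRT.Defs

set_option autoImplicit false

/-!
# P181, TRT: the numbers (TR12)
-/

namespace Vale.Agent.P181.TRT.H318

open Vale.Agent.P181.SZ
open Vale.Agent.P181.PL (dn)

/-- a product is at least the first three elementary symmetric functions. -/
theorem prod_ge {ι : Type} (s : Finset ι) (x : ι → ℝ) (hx : ∀ i, 0 ≤ x i) :
    ∑ i ∈ s, x i ^ 2 ≤ (∑ i ∈ s, x i) ^ 2 ∧
    1 + ∑ i ∈ s, x i + ((∑ i ∈ s, x i) ^ 2 - ∑ i ∈ s, x i ^ 2) / 2 ≤ ∏ i ∈ s, (1 + x i) := by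
  classical
  induction s using Finset.induction_on with
  | empty => simp
  | insert i s hi ih =>
    obtain ⟨h1, h2⟩ := ih
    have hS : 0 ≤ ∑ i ∈ s, x i := Finset.sum_nonneg fun i _ => hx i
    have hP := mul_le_mul_of_nonneg_left h2 (by linarith [hx i] : (0 : ℝ) ≤ 1 + x i)
    rw [Finset.sum_insert hi, Finset.sum_insert hi, Finset.prod_insert hi]
    have hq := mul_nonneg (hx i) (sub_nonneg.2 h1)
    have hxs := mul_nonneg (hx i) hS
    constructor
    · nlinarith
    · nlinarith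

/-- Stirling's lower bound. -/
theorem log_choose_le (n M : ℕ) (hn : 0 < n) (hM : n ≤ M) :
    Real.log (M.choose n : ℕ) ≤ n * (1 + Real.log ((M : ℝ) / n)) := by
  have hn' : (0 : ℝ) < n := by exact_mod_cast hn
  have hM' : (0 : ℝ) < M := by exact_mod_cast hn.trans_le hM
  have h1 : ((M.choose n : ℕ) : ℝ) ≤ (M : ℝ) ^ n / (n.factorial : ℝ) := Nat.choose_le_pow_div n M
  have h2 : (n : ℝ) ^ n / (n.factorial : ℝ) ≤ Real.exp n :=
    Real.pow_div_factorial_le_exp (n : ℝ) hn'.le n
  have h3 : (M : ℝ) ^ n / (n.factorial : ℝ) = ((M : ℝ) / n) ^ n * ((n : ℝ) ^ n / (n.factorial : ℝ)) := by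
    rw [div_pow]; field_simp
  have h4 : ((M.choose n : ℕ) : ℝ) ≤ ((M : ℝ) / n) ^ n * Real.exp n := by
    rw [h3] at h1
    exact h1.trans (mul_le_mul_of_nonneg_left h2 (by positivity))
  have h5 : (0 : ℝ) < ((M.choose n : ℕ) : ℝ) := by exact_mod_cast Nat.choose_pos hM
  calc Real.log (M.choose n : ℕ) ≤ Real.log (((M : ℝ) / n) ^ n * Real.exp n) :=
        Real.log_le_log h5 h4
    _ = n * (1 + Real.log ((M : ℝ) / n)) := by
        rw [Real.log_mul (by positivity) (by positivity), Real.log_pow, Real.log_exp]; ring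

/-- the second bound for a binomial coefficient. -/
theorem log_choose_le' (a d : ℕ) (t : ℝ) (ht : 0 < t) :
    Real.log ((a + d).choose d : ℕ) ≤ a * Real.log (1 + t) + d / t := by
  have h0 : ((a + d).choose d : ℝ) * t ^ d ≤ (1 + t) ^ (a + d) := by
    rw [add_comm (1 : ℝ) t, add_pow]
    have := Finset.single_le_sum (f := fun m => t ^ m * (1 : ℝ) ^ (a + d - m) * ((a + d).choose m : ℝ))
      (s := Finset.range (a + d + 1)) (fun i _ => by positivity)
      (Finset.mem_range.2 (by omega : d < a + d + 1))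
    simp only [one_pow, mul_one] at this ⊢
    linarith [mul_comm (t ^ d) ((a + d).choose d : ℝ)]
  have h5 : (0 : ℝ) < (((a + d).choose d : ℕ) : ℝ) := by
    exact_mod_cast Nat.choose_pos (by omega)
  have h1 := Real.log_le_log (by positivity) h0
  rw [Real.log_mul h5.ne' (by positivity), Real.log_pow, Real.log_pow] at h1
  have h2 : Real.log (1 + t) - Real.log t ≤ 1 / t := by
    rw [← Real.log_div (by positivity) ht.ne']
    have := Real.log_le_sub_one_of_pos (by positivity : 0 < (1 + t) / t)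
    have h3 : (1 + t) / t - 1 = 1 / t := by field_simp; ring
    linarith
  have h3 := mul_le_mul_of_nonneg_left h2 (Nat.cast_nonneg (α := ℝ) d)
  push_cast at h1
  have h4 : (d : ℝ) * (1 / t) = d / t := by ring
  nlinarith

/-- **one row.** -/
theorem row_le (a N X d mu : ℕ) (ha : 0 < a) (hN : 16 * a ≤ N) (hd : X * d ≤ mu)
    (hX : (10 : ℝ) ^ 6 * (1 + Real.log a) ≤ X) :
    4 * Real.log ((a + d).choose d : ℕ) ≤
      ((N - a : ℕ) : ℝ) * Real.log (1 + ((mu - d : ℕ) : ℝ) / N) := by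
  have ha' : (1 : ℝ) ≤ a := by exact_mod_cast ha
  have hla : 0 ≤ Real.log a := Real.log_nonneg ha'
  have hX6 : (10 : ℝ) ^ 6 ≤ X := by nlinarith
  have hX1 : 1 ≤ X := by
    have : (1 : ℝ) ≤ X := by linarith
    exact_mod_cast this
  have hdm : d ≤ mu := le_trans (Nat.le_mul_of_pos_left d hX1) hd
  have hNr : (16 : ℝ) * a ≤ N := by exact_mod_cast hN
  have hNp : (0 : ℝ) < N := by linarith
  have hL : ((N - a : ℕ) : ℝ) = (N : ℝ) - a := by
    rw [Nat.cast_sub (by omega)]
  have hL2 : (15 / 16 : ℝ) * N ≤ ((N - a : ℕ) : ℝ) := by rw [hL]; linarith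
  have hmd : ((mu - d : ℕ) : ℝ) = (mu : ℝ) - d := by rw [Nat.cast_sub hdm]
  have hdr : (X : ℝ) * d ≤ mu := by exact_mod_cast hd
  set x : ℝ := ((mu - d : ℕ) : ℝ) / N with hx
  have hx0 : 0 ≤ x := by positivity
  have hlx : 0 ≤ Real.log (1 + x) := Real.log_nonneg (by linarith)
  have hxN : x * N = (mu : ℝ) - d := by rw [hx, hmd]; field_simp
  rcases Nat.eq_zero_or_pos d with h0 | h0
  · subst h0
    simp only [Nat.choose_zero_right, Nat.cast_one, Real.log_one, mul_zero]
    exact mul_nonneg (Nat.cast_nonneg _) hlx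
  have hd1 : (1 : ℝ) ≤ d := by exact_mod_cast h0
  rcases le_or_gt x 2 with h2 | h2
  · -- few boxes
    have e1 : Real.log ((a + d).choose d : ℕ) ≤ d * (1 + Real.log (((a + d : ℕ) : ℝ) / d)) :=
      log_choose_le d (a + d) h0 (by omega)
    have e2 : Real.log (((a + d : ℕ) : ℝ) / d) ≤ 1 + Real.log a := by
      have : ((a + d : ℕ) : ℝ) / d ≤ 2 * a := by
        rw [div_le_iff₀ (by positivity)]; push_cast; nlinarith
      have h3 := Real.log_le_log (by positivity) this
      rw [Real.log_mul (by norm_num) (by positivity)] at h3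
      have := Real.log_two_lt_d9
      linarith
    have e3 : x / 3 ≤ Real.log (1 + x) := by
      have h4 := Real.one_sub_inv_le_log_of_pos (by positivity : 0 < 1 + x)
      have h5 : x / 3 ≤ 1 - (1 + x)⁻¹ := by
        have : 1 - (1 + x)⁻¹ = x / (1 + x) := by field_simp; ring
        rw [this]
        exact div_le_div_of_nonneg_left hx0 (by linarith) (by linarith)
      linarith
    have e4 : (d : ℝ) * (1 + Real.log (((a + d : ℕ) : ℝ) / d)) ≤ d * (2 * (1 + Real.log a)) :=
      mul_le_mul_of_nonneg_left (by linarith) (by positivity)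
    have e5 : (15 / 16 : ℝ) * N * (x / 3) ≤ ((N - a : ℕ) : ℝ) * Real.log (1 + x) :=
      mul_le_mul hL2 e3 (by positivity) (by positivity)
    have e6 : (15 / 16 : ℝ) * N * (x / 3) = (5 / 16) * ((mu : ℝ) - d) := by rw [← hxN]; ring
    have e7 : ((X : ℝ) - 1) * d ≤ (mu : ℝ) - d := by linarith
    have e8 : (10 : ℝ) ^ 6 * (1 + Real.log a) * d ≤ X * d :=
      mul_le_mul_of_nonneg_right hX (by positivity)
    have e9 : (0 : ℝ) ≤ Real.log a * d := by positivity
    nlinarith
  · -- many boxes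
    have e1 := log_choose_le' a d x (by linarith)
    have e2 : (d : ℝ) / x ≤ N / 1000 := by
      rw [div_le_iff₀ (by linarith)]
      have : (N : ℝ) / 1000 * x = ((mu : ℝ) - d) / 1000 := by rw [← hxN]; ring
      rw [this]
      nlinarith
    have e3 : (1 / 2 : ℝ) ≤ Real.log (1 + x) := by
      have h4 := Real.one_sub_inv_le_log_of_pos (by positivity : 0 < 1 + x)
      have : (1 + x)⁻¹ ≤ 1 / 2 := by
        rw [inv_eq_one_div]
        exact div_le_div_of_nonneg_left (by norm_num) (by norm_num) (by linarith)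
      linarith
    have e4 : (a : ℝ) * Real.log (1 + x) ≤ N / 16 * Real.log (1 + x) :=
      mul_le_mul_of_nonneg_right (by linarith) hlx
    have e5 : (15 / 16 : ℝ) * N * Real.log (1 + x) ≤ ((N - a : ℕ) : ℝ) * Real.log (1 + x) :=
      mul_le_mul_of_nonneg_right hL2 hlx
    have e6 : (N : ℝ) * (1 / 2) ≤ N * Real.log (1 + x) := mul_le_mul_of_nonneg_left e3 hNp.le
    nlinarith

/-- the numbers. -/
theorem num_le (X N L R S : ℝ) (hX6 : (10 : ℝ) ^ 6 ≤ X) (hlogX : 1 ≤ Real.log X)
    (hRX : X ^ 97 ≤ R / (4 * X)) (hR0 : 0 ≤ R) (hN : 0 < N) (hL : (15 / 16 : ℝ) * N ≤ L)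
    (hS : 2 * Real.log (1 + R / (4 * X)) ≤ S) :
    N * (1 + Real.log (1 + R)) + 9 * N * Real.log X ≤ 3 / 4 * (L * S) := by
  have hX0 : 0 < X := by linarith
  have hT97 : 97 * Real.log X ≤ Real.log (1 + R / (4 * X)) := by
    have h1 : X ^ 97 ≤ 1 + R / (4 * X) := by linarith
    have h2 := Real.log_le_log (by positivity) h1
    rw [Real.log_pow] at h2
    push_cast at h2
    exact h2
  have hR1 : Real.log (1 + R) ≤ Real.log (1 + R / (4 * X)) + 2 * Real.log X := by
    have h1 : 1 + R ≤ (1 + R / (4 * X)) * X ^ 2 := by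
      have h3 : R / (4 * X) * X ^ 2 = R * X / 4 := by field_simp
      rw [add_mul, h3]
      have h4 : (4 : ℝ) * R ≤ X * R := mul_le_mul_of_nonneg_right (by linarith) hR0
      have h5 : (1 : ℝ) ≤ X ^ 2 := one_le_pow₀ (by linarith)
      linarith [mul_comm X R]
    have h2 := Real.log_le_log (by positivity) h1
    rw [Real.log_mul (by positivity) (by positivity), Real.log_pow] at h2
    push_cast at h2
    exact h2
  generalize Real.log (1 + R / (4 * X)) = T at *
  generalize Real.log (1 + R) = U at *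
  generalize Real.log X = V at *
  have hT0 : 0 ≤ T := by linarith
  have h6 : (15 / 16 : ℝ) * N * (2 * T) ≤ L * S :=
    mul_le_mul hL hS (by positivity) (by linarith [mul_pos (by norm_num : (0 : ℝ) < 15 / 16) hN])
  have h7 : 1 + U + 9 * V ≤ (45 / 32) * T := by linarith
  have h8 : N * (1 + U) + 9 * N * V ≤ N * ((45 / 32) * T) := by
    have : N * (1 + U) + 9 * N * V = N * (1 + U + 9 * V) := by ring
    rw [this]
    exact mul_le_mul_of_nonneg_left h7 hN.le
  linarith [h6, h8]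

/-- **the numbers, real form.** -/
theorem main_le (a N X w m mu0 : ℕ) (mu dl : Fin m → ℕ) (ha : 0 < a) (hN : N = 16 * a + w / a)
    (hdl : ∀ i, X * dl i ≤ mu i) (hX : (10 : ℝ) ^ 6 * (1 + Real.log a) ≤ X)
    (hmu : ∀ i, mu i ≤ mu0) (hs : ∑ i, mu i = w) (hw : a ^ 2 ≤ X * w) (hD : w + X * mu0 ≤ X * w)
    (hXa : X ^ 100 ≤ a) :
    ((∏ i, (a + dl i).choose (dl i) : ℕ) : ℝ) * (((N + w).choose w * X ^ (9 * N) : ℕ) : ℝ) ≤
      (∏ i, (1 + ((mu i - dl i : ℕ) : ℝ) / N)) ^ (N - a) := by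
  have ha' : (1 : ℝ) ≤ a := by exact_mod_cast ha
  have hla : 0 ≤ Real.log a := Real.log_nonneg ha'
  have hX6 : (10 : ℝ) ^ 6 ≤ X := by nlinarith
  have hX0 : (0 : ℝ) < X := by linarith
  have hX1 : 1 ≤ X := by
    have : (1 : ℝ) ≤ X := by linarith
    exact_mod_cast this
  have hN16 : 16 * a ≤ N := by rw [hN]; exact Nat.le_add_right _ _
  have hNpos : 0 < N := by omega
  have hNr : (16 : ℝ) * a ≤ N := by exact_mod_cast hN16
  have hNp : (0 : ℝ) < N := by linarith
  have hwr : (a : ℝ) ^ 2 ≤ X * w := by exact_mod_cast hw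
  have hwp : (0 : ℝ) < w := by
    by_contra h
    have : (w : ℝ) = 0 := le_antisymm (not_lt.1 h) (Nat.cast_nonneg w)
    rw [this] at hwr
    nlinarith
  have hNle : (N : ℝ) ≤ 16 * a + w / a := by
    rw [hN]; push_cast
    have := @Nat.cast_div_le ℝ _ _ _ w a
    linarith
  have hL : ((N - a : ℕ) : ℝ) = (N : ℝ) - a := by rw [Nat.cast_sub (by omega)]
  have hL2 : (15 / 16 : ℝ) * N ≤ ((N - a : ℕ) : ℝ) := by rw [hL]; linarith
  -- the quantity R
  set R : ℝ := (w : ℝ) / N with hR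
  have hR0 : 0 ≤ R := by positivity
  have hRN : R * N = w := by rw [hR]; field_simp
  have hRa : (a : ℝ) ≤ 17 * X * R := by
    -- N ≤ 17 X w / a
    have h1 : (N : ℝ) * a ≤ 17 * X * w := by
      have h2 : (N : ℝ) * a ≤ (16 * a + w / a) * a := mul_le_mul_of_nonneg_right hNle (by positivity)
      have h3 : (16 * (a : ℝ) + w / a) * a = 16 * a ^ 2 + w := by field_simp
      nlinarith
    rw [hR]
    rw [show 17 * (X : ℝ) * (w / N) = 17 * X * w / N by ring, le_div_iff₀ hNp]
    linarith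
  have hXar : (X : ℝ) ^ 100 ≤ a := by exact_mod_cast hXa
  have hRX : (X : ℝ) ^ 97 ≤ R / (4 * X) := by
    rw [le_div_iff₀ (by positivity)]
    have h1 : (X : ℝ) ^ 100 ≤ 17 * X * R := hXar.trans hRa
    have h2 : (X : ℝ) ^ 99 ≤ 17 * R := by
      have : (X : ℝ) ^ 99 * X ≤ 17 * R * X := by nlinarith [pow_succ (X : ℝ) 99]
      exact le_of_mul_le_mul_right this hX0
    have h3 : (X : ℝ) ^ 98 * 68 ≤ X ^ 99 := by
      rw [pow_succ (X : ℝ) 98]
      exact mul_le_mul_of_nonneg_left (by linarith) (by positivity)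
    have h4 : (X : ℝ) ^ 97 * (4 * X) = 4 * X ^ 98 := by ring
    have h5 : (0 : ℝ) ≤ X ^ 98 := by positivity
    rw [h4]
    linarith
  have hlogX : 1 ≤ Real.log X := by
    have h1 : Real.exp 1 ≤ X := by
      have := Real.exp_one_lt_d9
      linarith
    have := Real.log_le_log (Real.exp_pos 1) h1
    rwa [Real.log_exp] at this
  -- (2) the product of the rows
  have hdm : ∀ i, dl i ≤ mu i := fun i => le_trans (Nat.le_mul_of_pos_left _ hX1) (hdl i)
  have hp1 : ∀ i, 1 + (mu i : ℝ) / (2 * N) ≤ 1 + ((mu i - dl i : ℕ) : ℝ) / N := by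
    intro i
    have h1 : (X : ℝ) * dl i ≤ mu i := by exact_mod_cast hdl i
    have h2 : ((mu i - dl i : ℕ) : ℝ) = (mu i : ℝ) - dl i := by rw [Nat.cast_sub (hdm i)]
    have h3 : (2 : ℝ) * dl i ≤ mu i := by
      have : (2 : ℝ) * dl i ≤ X * dl i :=
        mul_le_mul_of_nonneg_right (by linarith) (Nat.cast_nonneg _)
      linarith
    rw [h2]
    have : (mu i : ℝ) / (2 * N) ≤ ((mu i : ℝ) - dl i) / N := by
      rw [div_le_div_iff₀ (by positivity) hNp]
      nlinarith
    linarith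
  have hP : (1 + R / (4 * X)) ^ 2 ≤ ∏ i, (1 + ((mu i - dl i : ℕ) : ℝ) / N) := by
    have h1 : ∏ i, (1 + (mu i : ℝ) / (2 * N)) ≤ ∏ i, (1 + ((mu i - dl i : ℕ) : ℝ) / N) :=
      Finset.prod_le_prod (fun i _ => by positivity) fun i _ => hp1 i
    refine le_trans ?_ h1
    obtain ⟨-, h2⟩ := prod_ge Finset.univ (fun i => (mu i : ℝ) / (2 * N)) (fun i => by positivity)
    refine le_trans ?_ h2
    have hS : ∑ i, (mu i : ℝ) / (2 * N) = R / 2 := by
      rw [← Finset.sum_div, ← Nat.cast_sum, hs, hR]; field_simp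
    have hQ : ∑ i, ((mu i : ℝ) / (2 * N)) ^ 2 ≤ (mu0 : ℝ) / (2 * N) * (R / 2) := by
      rw [← hS, Finset.mul_sum]
      refine Finset.sum_le_sum fun i _ => ?_
      rw [sq]
      refine mul_le_mul_of_nonneg_right ?_ (by positivity)
      have : (mu i : ℝ) ≤ mu0 := by exact_mod_cast hmu i
      exact div_le_div_of_nonneg_right this (by positivity)
    have hDr : (w : ℝ) + X * mu0 ≤ X * w := by exact_mod_cast hD
    have hM : (mu0 : ℝ) / (2 * N) ≤ R / 2 - R / (2 * X) := by
      have h3 : (mu0 : ℝ) ≤ w - w / X := by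
        have : (w : ℝ) / X * X = w := by field_simp
        have h4 : (mu0 : ℝ) * X ≤ (w - w / X) * X := by
          rw [sub_mul, this]; linarith
        exact le_of_mul_le_mul_right h4 hX0
      have h5 : R / 2 - R / (2 * X) = (w - w / X) / (2 * N) := by
        rw [hR]; field_simp
      rw [h5]
      exact div_le_div_of_nonneg_right h3 (by positivity)
    rw [hS]
    have hRX0 : 0 ≤ R / X := by positivity
    have hRX1 : R / X ≤ R := div_le_self hR0 (by linarith)
    have e1 : R / (4 * X) = (R / X) / 4 := by rw [div_div R (X : ℝ) 4, mul_comm (4 : ℝ) X]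
    have e2 : R / (2 * X) = (R / X) / 2 := by rw [div_div R (X : ℝ) 2, mul_comm (2 : ℝ) X]
    rw [e2] at hM
    rw [e1]
    set y := R / X with hy
    have e3 : (mu0 : ℝ) / (2 * N) * (R / 2) ≤ (R / 2 - y / 2) * (R / 2) :=
      mul_le_mul_of_nonneg_right hM (by positivity)
    have e4 : y * y ≤ y * R := mul_le_mul_of_nonneg_left hRX1 hRX0
    nlinarith
  -- logarithms
  have hPos : ∀ i, (0 : ℝ) < 1 + ((mu i - dl i : ℕ) : ℝ) / N := fun i => by positivity
  set Sl : ℝ := ∑ i, Real.log (1 + ((mu i - dl i : ℕ) : ℝ) / N) with hSl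
  have hlogP : Real.log (∏ i, (1 + ((mu i - dl i : ℕ) : ℝ) / N)) = Sl :=
    Real.log_prod (fun i _ => (hPos i).ne')
  have hlP2 : 2 * Real.log (1 + R / (4 * X)) ≤ Sl := by
    rw [← hlogP]
    have := Real.log_le_log (by positivity) hP
    rw [Real.log_pow] at this
    push_cast at this
    exact this
  have hrow : 4 * Real.log ((∏ i, (a + dl i).choose (dl i) : ℕ) : ℝ) ≤ ((N - a : ℕ) : ℝ) * Sl := by
    rw [Nat.cast_prod, Real.log_prod (fun i _ => by
      exact_mod_cast (Nat.choose_pos (by omega : dl i ≤ a + dl i)).ne'), Finset.mul_sum, hSl,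
      Finset.mul_sum]
    exact Finset.sum_le_sum fun i _ => row_le a N X (dl i) (mu i) ha hN16 (hdl i) hX
  have hbin : Real.log (((N + w).choose w * X ^ (9 * N) : ℕ) : ℝ) ≤
      N * (1 + Real.log (1 + R)) + 9 * N * Real.log X := by
    have hc : 0 < (N + w).choose w := Nat.choose_pos (by omega)
    rw [Nat.cast_mul, Real.log_mul (by exact_mod_cast hc.ne') (by positivity), Nat.cast_pow,
      Real.log_pow]
    have h1 : (N + w).choose w = (N + w).choose N := by
      rw [← Nat.choose_symm_add]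
    have h2 := log_choose_le N (N + w) hNpos (by omega)
    rw [h1]
    have h3 : ((N + w : ℕ) : ℝ) / N = 1 + R := by
      rw [hR]; push_cast; field_simp
    rw [h3] at h2
    push_cast at h2 ⊢
    linarith
  have hfin : N * (1 + Real.log (1 + R)) + 9 * N * Real.log X ≤
      3 / 4 * (((N - a : ℕ) : ℝ) * Sl) :=
    num_le X N _ R Sl hX6 hlogX hRX hR0 hNp hL2 hlP2
  have hlhs1 : (0 : ℝ) < ((∏ i, (a + dl i).choose (dl i) : ℕ) : ℝ) := by
    have : 0 < ∏ i, (a + dl i).choose (dl i) :=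
      Finset.prod_pos fun i _ => Nat.choose_pos (by omega)
    exact_mod_cast this
  have hlhs2 : (0 : ℝ) < (((N + w).choose w * X ^ (9 * N) : ℕ) : ℝ) := by
    have hc : 0 < (N + w).choose w := Nat.choose_pos (by omega)
    have : 0 < (N + w).choose w * X ^ (9 * N) := Nat.mul_pos hc (Nat.pow_pos hX1)
    exact_mod_cast this
  have hrhs : (0 : ℝ) < (∏ i, (1 + ((mu i - dl i : ℕ) : ℝ) / N)) ^ (N - a) :=
    pow_pos (Finset.prod_pos fun i _ => hPos i) _
  rw [← Real.log_le_log_iff (mul_pos hlhs1 hlhs2) hrhs, Real.log_mul hlhs1.ne' hlhs2.ne',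
    Real.log_pow, hlogP]
  linarith

theorem dn_one {m : ℕ} (lam : Fin (m + 1) → ℕ) : dn lam 1 = ∑ i, tl lam i := by
  unfold dn
  rw [Fin.sum_univ_succ]
  simp [tl]

theorem dn_two {m : ℕ} (lam : Fin (m + 2) → ℕ) : dn lam 1 = tl lam 0 + dn lam 2 := by
  unfold dn
  rw [Fin.sum_univ_succ, Fin.sum_univ_succ, Fin.sum_univ_succ (n := m + 1),
    Fin.sum_univ_succ (n := m)]
  simp [tl, Fin.val_succ]

/-- **(TR12)** -/
theorem numC : NumC := by
  rintro a b m X lam ⟨hanti, hsum, hma, hab, hbX, hw32, haw, hwD, hXa, hX⟩ dl hdl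
  have ha : 0 < a := by omega
  have hX0 : 0 < X := by
    have ha' : (1 : ℝ) ≤ a := by exact_mod_cast ha
    have hla : 0 ≤ Real.log a := Real.log_nonneg ha'
    have : (0 : ℝ) < X := by nlinarith
    exact_mod_cast this
  rcases m with _ | m
  · have h1 : dn lam 1 = 0 := by rw [dn_one]; simp
    rw [h1, mul_zero] at haw
    have : 0 < a ^ 2 := by positivity
    omega
  · have h2 := dn_two lam
    refine main_le a (N0 a (dn lam 1)) X (dn lam 1) (m + 1) (tl lam 0) (tl lam) dl ha rfl hdl hX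
      ?_ (dn_one lam).symm haw ?_ hXa
    · intro i
      exact hanti (by
        rw [Fin.le_def]
        simp [Fin.val_succ])
    · calc dn lam 1 + X * tl lam 0 ≤ X * dn lam 2 + X * tl lam 0 := by omega
        _ = X * dn lam 1 := by rw [h2]; ring

end Vale.Agent.P181.TRT.H318
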